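import Vale.Agent.P105Z.Units
import Vale.Agent.P105.Bdl.B1
import Vale.Agent.P105.H5.Dim

/-!
# Singularity and concentration of the signed sums at nearby parameters
-/

open MeasureTheory Filter Topology
open scoped ENNReal

namespace Vale.Agent.P105Z

open Vale.Agent.P105

theorem PP_cyl (n : ℕ) (S : Finset (Fin n → Bool)) :
    H5.PP (H5.blk n 0 ⁻¹' (S : Set (Fin n → Bool))) = ENNReal.ofReal (S.card / 2 ^ n) := by
  rw [← Measure.map_apply (H5.measurable_blk n 0) S.measurableSet, H5.map_blk,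
    ← sum_measure_singleton]
  simp only [H5.block_singleton, Finset.sum_const, nsmul_eq_mul]
  rw [ENNReal.ofReal_div_of_pos (by positivity), ENNReal.ofReal_natCast, ENNReal.ofReal_pow
    (by norm_num), div_eq_mul_inv, ENNReal.inv_pow]
  simp

theorem abs_YY_le {lam : ℝ} (h0 : 0 < lam) (h1 : lam < 1) (ω : ℕ → Bool) :
    |Salem.YY lam ω| ≤ (1 - lam)⁻¹ := by
  unfold Salem.YY
  rw [← Real.norm_eq_abs, ← tsum_geometric_of_lt_one h0.le h1]
  refine tsum_of_norm_bounded (summable_geometric_of_lt_one h0.le h1).hasSum fun n => ?_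
  rw [norm_mul, Real.norm_eq_abs, Salem.abs_sgn_eq, one_mul, Real.norm_of_nonneg (by positivity)]

theorem YY_close {lam : ℝ} (h0 : 0 < lam) (h1 : lam < 1) (n : ℕ) (ω : ℕ → Bool) :
    |Salem.YY lam ω - psum lam n (H5.blk n 0 ω)| ≤ (1 - lam)⁻¹ * lam ^ n := by
  have e : psum lam n (H5.blk n 0 ω) = ∑ i ∈ Finset.range n, sgn (ω i) * lam ^ i := by
    unfold psum H5.blk
    simp only [zero_mul, zero_add]
    exact Fin.sum_univ_eq_sum_range (fun i => sgn (ω i) * lam ^ i) n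
  rw [Salem.YY_split h0 h1 n ω, e, add_sub_cancel_left, abs_mul, abs_of_pos (pow_pos h0 n),
    mul_comm]
  exact mul_le_mul_of_nonneg_right (abs_YY_le h0 h1 _) (pow_pos h0 n).le

theorem psum_lip {ρ : ℝ} (h0 : 0 < ρ) (h1 : ρ < 1) :
    ∃ L : ℝ, 0 ≤ L ∧ ∀ x y : ℝ, |x| ≤ ρ → |y| ≤ ρ → ∀ (n : ℕ) (e : Fin n → Bool),
      |psum x n e - psum y n e| ≤ L * |x - y| := by
  have hs : Summable fun i : ℕ => (i : ℝ) ^ 1 * ρ ^ i :=
    summable_pow_mul_geometric_of_norm_lt_one 1 (by rwa [Real.norm_of_nonneg h0.le])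
  refine ⟨ρ⁻¹ * ∑' i : ℕ, (i : ℝ) ^ 1 * ρ ^ i,
    mul_nonneg (by positivity) (tsum_nonneg fun i => by positivity), fun x y hx hy n e => ?_⟩
  have h2 : ∀ i : ℕ, |x ^ i - y ^ i| ≤ ρ⁻¹ * ((i : ℝ) ^ 1 * ρ ^ i) * |x - y| := by
    intro i
    refine (abs_pow_sub_pow_le x y i).trans ?_
    rcases i with _ | i
    · simp
    · have h3 : max |x| |y| ^ (i + 1 - 1) ≤ ρ ^ i := by
        rw [Nat.add_sub_cancel]
        exact pow_le_pow_left₀ (le_max_of_le_left (abs_nonneg _)) (max_le hx hy) i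
      calc |x - y| * ((i + 1 : ℕ) : ℝ) * max |x| |y| ^ (i + 1 - 1)
          ≤ |x - y| * ((i + 1 : ℕ) : ℝ) * ρ ^ i := by gcongr
        _ = _ := by rw [pow_succ ρ i]; field_simp
  unfold psum
  rw [← Finset.sum_sub_distrib]
  calc |∑ i : Fin n, (sgn (e i) * x ^ (i : ℕ) - sgn (e i) * y ^ (i : ℕ))|
      ≤ ∑ i : Fin n, |sgn (e i) * x ^ (i : ℕ) - sgn (e i) * y ^ (i : ℕ)| :=
        Finset.abs_sum_le_sum_abs _ _
    _ ≤ ∑ i : Fin n, ρ⁻¹ * (((i : ℕ) : ℝ) ^ 1 * ρ ^ (i : ℕ)) * |x - y| := by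
        refine Finset.sum_le_sum fun i _ => ?_
        rw [← mul_sub, abs_mul, Salem.abs_sgn_eq, one_mul]
        exact h2 i
    _ = ρ⁻¹ * (∑ i ∈ Finset.range n, (i : ℝ) ^ 1 * ρ ^ i) * |x - y| := by
        rw [← Finset.sum_mul, ← Finset.mul_sum,
          Fin.sum_univ_eq_sum_range (fun i : ℕ => (i : ℝ) ^ 1 * ρ ^ i) n]
    _ ≤ _ := by
        gcongr
        exact hs.sum_le_tsum _ fun i _ => by positivity

/-- uniform control of the parameters `η` near `lam` -/
theorem near {lam : ℝ} (h0 : 0 < lam) (h1 : lam < 1) :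
    ∃ M : ℝ, 0 ≤ M ∧ ∀ᶠ n : ℕ in atTop, ∀ η : ℝ, |η - lam| ≤ lam ^ n →
      0 < η ∧ η ≤ (1 + lam) / 2 ∧ lam ^ n ≤ 2 * η ^ n ∧
      ∀ ω : ℕ → Bool, |Salem.YY lam ω - psum η n (H5.blk n 0 ω)| ≤ M * lam ^ n := by
  obtain ⟨L, hL, hlip⟩ := psum_lip (ρ := (1 + lam) / 2) (by linarith) (by linarith)
  have hi : 0 < (1 - lam)⁻¹ := inv_pos.2 (by linarith)
  refine ⟨(1 - lam)⁻¹ + L, by positivity, ?_⟩
  have t1 : Tendsto (fun n : ℕ => lam ^ n) atTop (𝓝 0) :=
    tendsto_pow_atTop_nhds_zero_of_lt_one h0.le h1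
  have t2 : Tendsto (fun n : ℕ => (n : ℝ) * lam ^ n) atTop (𝓝 0) :=
    tendsto_self_mul_const_pow_of_lt_one h0.le h1
  filter_upwards [t1.eventually (ge_mem_nhds (show (0 : ℝ) < (1 - lam) / 2 by linarith)),
    t1.eventually (ge_mem_nhds (show (0 : ℝ) < lam / 2 by linarith)),
    t2.eventually (ge_mem_nhds (show (0 : ℝ) < lam / 2 by linarith))] with n e1 e2 e3 η hη
  have hη' := abs_le.1 hη
  have hη0 : 0 < η := by linarith [hη'.1]
  have hηρ : η ≤ (1 + lam) / 2 := by linarith [hη'.2]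
  refine ⟨hη0, hηρ, ?_, fun ω => ?_⟩
  · have ha : lam ^ n / lam ≤ 1 / 2 := by rw [div_le_iff₀ h0]; linarith
    have hb : (n : ℝ) * (lam ^ n / lam) ≤ 1 / 2 := by
      rw [← mul_div_assoc, div_le_iff₀ h0]; linarith
    have h2 := one_add_mul_le_pow (a := -(lam ^ n / lam)) (by linarith) n
    have h3 : lam * (1 + -(lam ^ n / lam)) ≤ η := by
      have : lam * (1 + -(lam ^ n / lam)) = lam - lam ^ n := by field_simp; ring
      linarith [hη'.1]
    have h4 : (lam * (1 + -(lam ^ n / lam))) ^ n ≤ η ^ n :=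
      pow_le_pow_left₀ (mul_nonneg h0.le (by linarith)) h3 n
    rw [mul_pow] at h4
    have h5 : 0 < lam ^ n := pow_pos h0 n
    nlinarith
  · have h2 := YY_close h0 h1 n ω
    have h3 := hlip lam η (by rw [abs_of_pos h0]; linarith) (by rwa [abs_of_pos hη0]) n
      (H5.blk n 0 ω)
    have h4 : L * |lam - η| ≤ L * lam ^ n := by
      rw [abs_sub_comm]; exact mul_le_mul_of_nonneg_left hη hL
    have h5 := abs_sub_le (Salem.YY lam ω) (psum lam n (H5.blk n 0 ω)) (psum η n (H5.blk n 0 ω))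
    linarith

theorem floor_cell {x r : ℝ} (hr : 0 < r) :
    (⌊x / r⌋ : ℝ) * r ≤ x ∧ x < ((⌊x / r⌋ : ℝ) + 1) * r :=
  ⟨(le_div_iff₀ hr).1 (Int.floor_le _), (div_lt_iff₀ hr).1 (Int.lt_floor_add_one _)⟩

/-- concentration at nearby parameters gives singularity -/
theorem singular_of_conc {lam : ℝ} (h0 : 0 < lam) (h1 : lam < 1)
    (H : ∀ K N : ℕ, ∃ n ≥ N, ∃ η : ℝ, |η - lam| ≤ lam ^ n ∧ Concentrated η n K) :
    bernConv lam ⟂ₘ volume := by
  obtain ⟨M, hM, hev⟩ := near h0 h1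
  obtain ⟨N, hN⟩ := eventually_atTop.1 hev
  refine Salem.singular_of_sets h0 h1 (δ := 1 / 2) (by norm_num) fun ε hε => ?_
  obtain ⟨K, hK⟩ := exists_nat_gt ((1 + 4 * M) / ε)
  have hK0 : (0 : ℝ) < K := lt_of_le_of_lt (by positivity) hK
  obtain ⟨n, hn, η, hη, J, hJ, hS⟩ := H K N
  obtain ⟨hη0, -, hle, hω⟩ := hN n hn η hη
  have hp : 0 < η ^ n := pow_pos hη0 n
  have hl : 0 < lam ^ n := pow_pos h0 n
  set E : Set ℝ := ⋃ j ∈ J, Set.Icc ((j : ℝ) * η ^ n - M * lam ^ n)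
    (((j : ℝ) + 1) * η ^ n + M * lam ^ n) with hE
  have hEm : MeasurableSet E := Finset.measurableSet_biUnion _ fun _ _ => measurableSet_Icc
  refine ⟨E, hEm, ?_, ?_⟩
  · refine (measure_biUnion_finset_le _ _).trans ?_
    have e1 : ∀ j ∈ J, volume (Set.Icc ((j : ℝ) * η ^ n - M * lam ^ n)
        (((j : ℝ) + 1) * η ^ n + M * lam ^ n)) = ENNReal.ofReal (η ^ n + 2 * M * lam ^ n) := by
      intro j _
      rw [Real.volume_Icc]
      congr 1
      ring
    rw [Finset.sum_congr rfl e1, Finset.sum_const, nsmul_eq_mul, ← ENNReal.ofReal_natCast,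
      ← ENNReal.ofReal_mul (by positivity)]
    refine ENNReal.ofReal_le_ofReal ?_
    have h2 : η ^ n + 2 * M * lam ^ n ≤ (1 + 4 * M) * η ^ n := by nlinarith
    have h3 : (J.card : ℝ) * η ^ n ≤ 1 / K := by
      rw [le_div_iff₀ hK0]; linarith
    have h4 : (1 + 4 * M) * (1 / K) ≤ ε := by
      rw [div_lt_iff₀ hε] at hK
      rw [mul_one_div, div_le_iff₀ hK0]; linarith
    calc (J.card : ℝ) * (η ^ n + 2 * M * lam ^ n) ≤ J.card * ((1 + 4 * M) * η ^ n) := by gcongr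
      _ = (1 + 4 * M) * (J.card * η ^ n) := by ring
      _ ≤ (1 + 4 * M) * (1 / K) := by gcongr
      _ ≤ ε := h4
  · rw [Salem.bernConv_eq, Measure.map_apply (Salem.YY_meas h0 h1) hEm]
    set S := Finset.univ.filter fun e : Fin n → Bool => ⌊psum η n e / η ^ n⌋ ∈ J with hSdef
    have hsub : H5.blk n 0 ⁻¹' (S : Set (Fin n → Bool)) ⊆ Salem.YY lam ⁻¹' E := by
      intro ω hω'
      have h2 : ⌊psum η n (H5.blk n 0 ω) / η ^ n⌋ ∈ J := (Finset.mem_filter.1 hω').2
      have h3 := floor_cell (x := psum η n (H5.blk n 0 ω)) hp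
      have h4 := abs_le.1 (hω ω)
      simp only [hE, Set.mem_preimage, Set.mem_iUnion]
      exact ⟨_, h2, by linarith [h3.1, h4.1], by linarith [h3.2, h4.2]⟩
    refine le_trans ?_ (measure_mono (μ := H5.PP) hsub)
    rw [PP_cyl]
    refine ENNReal.ofReal_le_ofReal ?_
    rw [div_le_div_iff₀ (by norm_num) (by positivity)]
    have : ((2 ^ n : ℕ) : ℝ) ≤ ((2 * S.card : ℕ) : ℝ) := by exact_mod_cast hS
    push_cast at this
    linarith

/-- singularity gives concentration at all nearby parameters -/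
theorem conc_of_singular {lam : ℝ} (h0 : 0 < lam) (h1 : lam < 1)
    (hs : bernConv lam ⟂ₘ volume) (K : ℕ) :
    ∀ᶠ n : ℕ in atTop, ∀ η : ℝ, |η - lam| ≤ lam ^ n → Concentrated η n K := by
  classical
  have := Salem.bernConv_prob h0 h1
  obtain ⟨s, hsm, hs1, hs2⟩ := hs
  obtain ⟨U, hsU, hU, hUv⟩ := Set.exists_isOpen_lt_of_lt (μ := volume) sᶜ
    (ENNReal.ofReal (1 / (K + 1))) (by rw [hs2]; exact ENNReal.ofReal_pos.2 (by positivity))
  have hU1 : ENNReal.ofReal (1 / 2) < bernConv lam U := by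
    have h2 : bernConv lam sᶜ = 1 := by
      rw [prob_compl_eq_one_sub hsm, hs1, tsub_zero]
    refine lt_of_lt_of_le ?_ (measure_mono hsU)
    rw [h2]
    exact ENNReal.ofReal_lt_one.2 (by norm_num)
  obtain ⟨C, hCU, hC, hC1⟩ := hU.exists_lt_isCompact hU1
  obtain ⟨δ, hδ, hth⟩ := hC.exists_cthickening_subset_open hU hCU
  obtain ⟨M, hM, hev⟩ := near h0 h1
  have t1 : Tendsto (fun n : ℕ => M * lam ^ n + ((1 + lam) / 2) ^ n) atTop (𝓝 0) := by
    have a := (tendsto_pow_atTop_nhds_zero_of_lt_one h0.le h1).const_mul M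
    have b := tendsto_pow_atTop_nhds_zero_of_lt_one (r := (1 + lam) / 2) (by linarith)
      (by linarith)
    simpa using a.add b
  filter_upwards [hev, t1.eventually (ge_mem_nhds hδ)] with n hn e1 η hη
  obtain ⟨hη0, hηρ, -, hω⟩ := hn η hη
  have hp : 0 < η ^ n := pow_pos hη0 n
  have hρ : η ^ n ≤ ((1 + lam) / 2) ^ n := pow_le_pow_left₀ hη0.le hηρ n
  set S := Finset.univ.filter fun e : Fin n → Bool =>
    ∃ ω, H5.blk n 0 ω = e ∧ Salem.YY lam ω ∈ C with hS
  refine ⟨S.image fun e => ⌊psum η n e / η ^ n⌋, ?_, ?_⟩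
  · set J := S.image fun e => ⌊psum η n e / η ^ n⌋ with hJ
    have hsub : (⋃ j ∈ J, Set.Ico ((j : ℝ) * η ^ n) (((j : ℝ) + 1) * η ^ n)) ⊆ U := by
      intro x hx
      simp only [Set.mem_iUnion] at hx
      obtain ⟨j, hj, hx⟩ := hx
      obtain ⟨e, he, rfl⟩ := Finset.mem_image.1 hj
      obtain ⟨ω, rfl, hωC⟩ := (Finset.mem_filter.1 he).2
      refine hth (Metric.mem_cthickening_of_dist_le x _ δ C hωC ?_)
      have h3 := floor_cell (x := psum η n (H5.blk n 0 ω)) hp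
      have h4 := abs_le.1 (hω ω)
      rw [Real.dist_eq, abs_le]
      constructor <;> linarith [h3.1, h3.2, h4.1, h4.2, hx.1, hx.2]
    have hv := (measure_mono (μ := volume) hsub).trans_lt hUv
    rw [measure_biUnion_finset ?_ fun _ _ => measurableSet_Ico] at hv
    · have e2 : ∀ j ∈ J, volume (Set.Ico ((j : ℝ) * η ^ n) (((j : ℝ) + 1) * η ^ n)) =
          ENNReal.ofReal (η ^ n) := by
        intro j _
        rw [Real.volume_Ico]
        congr 1
        ring
      rw [Finset.sum_congr rfl e2, Finset.sum_const, nsmul_eq_mul, ← ENNReal.ofReal_natCast,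
        ← ENNReal.ofReal_mul (by positivity), ENNReal.ofReal_lt_ofReal_iff (by positivity),
        lt_div_iff₀ (by positivity)] at hv
      have : 0 ≤ (J.card : ℝ) * η ^ n := by positivity
      nlinarith
    · intro i _ j _ hij
      rw [Function.onFun, Set.disjoint_left]
      intro x hx hx'
      apply hij
      have a1 : (i : ℝ) < j + 1 := lt_of_mul_lt_mul_right (hx.1.trans_lt hx'.2) hp.le
      have a2 : (j : ℝ) < i + 1 := lt_of_mul_lt_mul_right (hx'.1.trans_lt hx.2) hp.le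
      have b1 : i < j + 1 := by exact_mod_cast a1
      have b2 : j < i + 1 := by exact_mod_cast a2
      omega
  · have hsub : Salem.YY lam ⁻¹' C ⊆ H5.blk n 0 ⁻¹' (S : Set (Fin n → Bool)) := by
      intro ω hω'
      exact Finset.mem_filter.2 ⟨Finset.mem_univ _, ω, rfl, hω'⟩
    rw [Salem.bernConv_eq, Measure.map_apply (Salem.YY_meas h0 h1) hC.measurableSet] at hC1
    have h2 := hC1.trans_le (measure_mono (μ := H5.PP) hsub)
    rw [PP_cyl, ENNReal.ofReal_lt_ofReal_iff_of_nonneg (by norm_num),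
      div_lt_div_iff₀ (by norm_num) (by positivity)] at h2
    have h3 : S.card ≤ (Finset.univ.filter fun e : Fin n → Bool =>
        ⌊psum η n e / η ^ n⌋ ∈ S.image fun e => ⌊psum η n e / η ^ n⌋).card :=
      Finset.card_le_card fun e he =>
        Finset.mem_filter.2 ⟨Finset.mem_univ _, Finset.mem_image_of_mem _ he⟩
    have h4 : ((2 ^ n : ℕ) : ℝ) ≤ ((2 * S.card : ℕ) : ℝ) := by push_cast; linarith
    have h5 : 2 ^ n ≤ 2 * S.card := by exact_mod_cast h4
    omega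

/-- the law of pure types -/
theorem ac_of_not_singular {lam : ℝ} (h0 : 0 < lam) (h1 : lam < 1)
    (h : ¬ bernConv lam ⟂ₘ volume) : bernConv lam ≪ volume := by
  have := Salem.bernConv_prob h0 h1
  refine Measure.AbsolutelyContinuous.mk fun s hs hv => ?_
  by_contra hne
  apply h
  refine Salem.singular_of_sets h0 h1 (δ := (bernConv lam s).toReal)
    (ENNReal.toReal_pos hne (measure_ne_top _ _)) fun ε _ => ⟨s, hs, by simp [hv], ?_⟩
  rw [ENNReal.ofReal_toReal (measure_ne_top _ _)]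

theorem not_singular_of_ac {lam : ℝ} (h0 : 0 < lam) (h1 : lam < 1)
    (h : bernConv lam ≪ volume) : ¬ bernConv lam ⟂ₘ volume := by
  have := Salem.bernConv_prob h0 h1
  intro hs
  exact (IsProbabilityMeasure.ne_zero (bernConv lam))
    (Measure.eq_zero_of_absolutelyContinuous_of_mutuallySingular h hs)

end Vale.Agent.P105Z
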