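import Vale.Agent.P105.Defs

/-!
# The finite sets of algebraic units that classify the singular Bernoulli convolutions
-/

namespace Vale.Agent.P105Z

open Vale.Agent.P105

/-- The `2 ^ n` numbers `(∑_{i < n} ± η ^ i) / η ^ n` are `K`-concentrated: at least half of
them have their integer part in a set of at most `η ^ (-n) / K` integers. -/
def Concentrated (η : ℝ) (n K : ℕ) : Prop :=
  ∃ J : Finset ℤ, (K : ℝ) * J.card * η ^ n ≤ 1 ∧
    2 ^ n ≤ 2 * (Finset.univ.filter fun e : Fin n → Bool => ⌊psum η n e / η ^ n⌋ ∈ J).card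

/-- The set `A(n, K)`: the roots `η ∈ (0, 1)` of the equations `∑_{k ∈ D} η ^ k = 1`,
`D ⊆ {1, …, n}`, whose `2 ^ n` signed sums of length `n` are `K`-concentrated. -/
def unitSet (n K : ℕ) : Set ℝ :=
  {η | 0 < η ∧ η < 1 ∧ (∃ D ⊆ Finset.Icc 1 n, ∑ k ∈ D, η ^ k = 1) ∧ Concentrated η n K}

end Vale.Agent.P105Z
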