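import Vale.Agent.P105Z.Core

/-!
# The classification
-/

open MeasureTheory Filter Topology
open scoped ENNReal

namespace Vale.Agent.P105Z

open Vale.Agent.P105

theorem Concentrated.mono {η : ℝ} (h0 : 0 < η) {n K K' : ℕ} (hK : K ≤ K')
    (h : Concentrated η n K') : Concentrated η n K := by
  obtain ⟨J, h1, h2⟩ := h
  refine ⟨J, le_trans ?_ h1, h2⟩
  have : (K : ℝ) ≤ K' := by exact_mod_cast hK
  gcongr

theorem Concentrated.le_pow {η : ℝ} (h0 : 1 / 2 ≤ η) {n K : ℕ} (h : Concentrated η n K) :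
    K ≤ 2 ^ n := by
  obtain ⟨J, h1, h2⟩ := h
  have hJ : 1 ≤ J.card := by
    rcases J.eq_empty_or_nonempty with rfl | hne
    · simp at h2
    · exact hne.card_pos
  have h3 : (1 : ℝ) ≤ J.card := by exact_mod_cast hJ
  have h4 : (1 / 2 : ℝ) ^ n ≤ η ^ n := pow_le_pow_left₀ (by norm_num) h0 n
  have h5 : (K : ℝ) * 1 * (1 / 2) ^ n ≤ K * J.card * η ^ n := by gcongr
  have h6 : (K : ℝ) * (1 / 2) ^ n ≤ 1 := by linarith
  rw [one_div, inv_pow, ← div_eq_mul_inv, div_le_one (by positivity)] at h6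
  exact_mod_cast h6

theorem unitSet_half {n K : ℕ} {η : ℝ} (h : η ∈ unitSet n K) : 1 / 2 < η := by
  obtain ⟨h0, -, ⟨D, hD, hs⟩, -⟩ := h
  exact half_lt_of_root h0 hD hs

theorem singular_of_approx {lam : ℝ} (h0 : 0 < lam) (h1 : lam < 1)
    (H : ∀ K : ℕ, ∃ n : ℕ, ∃ η ∈ unitSet n K, |η - lam| ≤ lam ^ n) :
    bernConv lam ⟂ₘ volume := by
  refine singular_of_conc h0 h1 fun K N => ?_
  obtain ⟨n, η, hη, hd⟩ := H (max K (2 ^ N))
  have h2 := (hη.2.2.2.le_pow (unitSet_half hη).le)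
  refine ⟨n, ?_, η, hd, hη.2.2.2.mono hη.1 (le_max_left _ _)⟩
  exact (Nat.pow_le_pow_iff_right (by norm_num)).1 ((le_max_right _ _).trans h2)

theorem approx_of_singular {lam : ℝ} (h0 : 1 / 2 ≤ lam) (h1 : lam < 1)
    (hs : bernConv lam ⟂ₘ volume) (K : ℕ) :
    ∀ᶠ n : ℕ in atTop, ∃ η ∈ unitSet n K, lam ≤ η ∧ η ≤ lam + lam ^ n := by
  have h0' : 0 < lam := by linarith
  have t1 : Tendsto (fun n : ℕ => lam ^ n) atTop (𝓝 0) :=
    tendsto_pow_atTop_nhds_zero_of_lt_one h0'.le h1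
  filter_upwards [conc_of_singular h0' h1 hs K, eventually_ge_atTop 1,
    t1.eventually (gt_mem_nhds (show (0 : ℝ) < 1 - lam by linarith))] with n hn hn1 e1
  obtain ⟨η, h2, h3, hD⟩ := exists_root h0 h1 hn1
  refine ⟨η, ⟨by linarith, by linarith, hD, hn η ?_⟩, h2, h3⟩
  rw [abs_of_nonneg (by linarith)]
  linarith

theorem singular_of_lt_half {lam : ℝ} (h0 : 0 < lam) (h1 : lam < 1 / 2) :
    bernConv lam ⟂ₘ volume := by
  classical
  refine singular_of_conc h0 (by linarith) fun K N => ?_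
  have t1 : Tendsto (fun n : ℕ => (K : ℝ) * (2 * lam) ^ n) atTop (𝓝 0) := by
    simpa using (tendsto_pow_atTop_nhds_zero_of_lt_one (r := 2 * lam) (by linarith)
      (by linarith)).const_mul (K : ℝ)
  obtain ⟨n, hn, e⟩ := ((eventually_ge_atTop N).and
    (t1.eventually (ge_mem_nhds (show (0 : ℝ) < 1 by norm_num)))).exists
  refine ⟨n, hn, lam, by simp; positivity,
    Finset.univ.image fun e : Fin n → Bool => ⌊psum lam n e / lam ^ n⌋, ?_, ?_⟩
  · have h2 : ((Finset.univ.image fun e : Fin n → Bool => ⌊psum lam n e / lam ^ n⌋).card : ℝ) ≤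
        2 ^ n := by
      have := Finset.card_image_le (s := (Finset.univ : Finset (Fin n → Bool)))
        (f := fun e : Fin n → Bool => ⌊psum lam n e / lam ^ n⌋)
      simp only [Finset.card_univ, Fintype.card_fun, Fintype.card_bool, Fintype.card_fin] at this
      exact_mod_cast this
    refine le_trans ?_ e
    rw [mul_pow, ← mul_assoc]
    gcongr
  · rw [Finset.filter_true_of_mem fun e _ => Finset.mem_image_of_mem _ (Finset.mem_univ e)]
    simp only [Finset.card_univ, Fintype.card_fun, Fintype.card_bool, Fintype.card_fin]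
    omega

theorem classification {lam : ℝ} (h0 : 1 / 2 ≤ lam) (h1 : lam < 1) :
    (bernConv lam ⟂ₘ volume ↔
      ∀ K : ℕ, ∃ n : ℕ, ∃ η ∈ unitSet n K, lam ≤ η ∧ η ≤ lam + lam ^ n) ∧
    (bernConv lam ≪ volume ↔
      ∃ K : ℕ, ∀ n : ℕ, ∀ η ∈ unitSet n K, ¬ (lam ≤ η ∧ η ≤ lam + lam ^ n)) ∧
    (bernConv lam ⟂ₘ volume ↔
      ∀ K : ℕ, ∀ᶠ n : ℕ in atTop, ∃ η ∈ unitSet n K, lam ≤ η ∧ η ≤ lam + lam ^ n) ∧
    (bernConv lam ⟂ₘ volume ↔ ∀ K : ℕ, ∃ n : ℕ, ∃ η ∈ unitSet n K, |η - lam| ≤ lam ^ n) := by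
  have h0' : 0 < lam := by linarith
  have a : (∀ K : ℕ, ∃ n : ℕ, ∃ η ∈ unitSet n K, lam ≤ η ∧ η ≤ lam + lam ^ n) →
      ∀ K : ℕ, ∃ n : ℕ, ∃ η ∈ unitSet n K, |η - lam| ≤ lam ^ n := fun H K => by
    obtain ⟨n, η, hη, h2, h3⟩ := H K
    exact ⟨n, η, hη, by rw [abs_of_nonneg (by linarith)]; linarith⟩
  have b : bernConv lam ⟂ₘ volume ↔
      ∀ K : ℕ, ∃ n : ℕ, ∃ η ∈ unitSet n K, lam ≤ η ∧ η ≤ lam + lam ^ n :=
    ⟨fun hs K => (approx_of_singular h0 h1 hs K).exists,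
      fun H => singular_of_approx h0' h1 (a H)⟩
  refine ⟨b, ?_, ⟨approx_of_singular h0 h1, fun H => b.2 fun K => (H K).exists⟩,
    ⟨fun hs => a (b.1 hs), singular_of_approx h0' h1⟩⟩
  have c : bernConv lam ≪ volume ↔ ¬ bernConv lam ⟂ₘ volume :=
    ⟨not_singular_of_ac h0' h1, ac_of_not_singular h0' h1⟩
  rw [c, b]
  push Not
  rfl

end Vale.Agent.P105Z
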