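import Vale.Agent.P105Z.Defs

/-!
# Finiteness, integrality and density of the roots of `∑_{k ∈ D} x ^ k = 1`
-/

open Polynomial

namespace Vale.Agent.P105Z

theorem roots_finite (n : ℕ) :
    {η : ℝ | ∃ D ⊆ Finset.Icc 1 n, ∑ k ∈ D, η ^ k = 1}.Finite := by
  have h : {η : ℝ | ∃ D ⊆ Finset.Icc 1 n, ∑ k ∈ D, η ^ k = 1} ⊆
      ⋃ D ∈ (Finset.Icc 1 n).powerset, {η : ℝ | IsRoot (∑ k ∈ D, X ^ k - 1 : ℝ[X]) η} := by
    rintro η ⟨D, hD, h⟩
    simp only [Set.mem_iUnion]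
    refine ⟨D, Finset.mem_powerset.2 hD, ?_⟩
    simp only [Set.mem_ofPred_eq, IsRoot, eval_sub, eval_finsetSum, eval_pow, eval_X, eval_one, h,
      sub_self]
  refine Set.Finite.subset ?_ h
  refine Set.Finite.biUnion (Finset.finite_toSet _) fun D hD => ?_
  refine Polynomial.finite_setOfPred_isRoot ?_
  intro h0
  have h1 := congrArg (eval 0) h0
  have h2 : ∑ k ∈ D, (0 : ℝ) ^ k = 0 := by
    refine Finset.sum_eq_zero fun k hk => ?_
    have := Finset.mem_Icc.1 (Finset.mem_powerset.1 hD hk)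
    exact zero_pow (by omega)
  simp only [eval_sub, eval_finsetSum, eval_pow, eval_X, eval_one, h2, eval_zero] at h1
  norm_num at h1

theorem unitSet_finite (n K : ℕ) : (unitSet n K).Finite :=
  (roots_finite n).subset fun _ h => h.2.2.1

theorem half_lt_of_root {η : ℝ} (h0 : 0 < η) {n : ℕ} {D : Finset ℕ} (hD : D ⊆ Finset.Icc 1 n)
    (h : ∑ k ∈ D, η ^ k = 1) : 1 / 2 < η := by
  by_contra hc
  push Not at hc
  have h1 : ∑ k ∈ D, η ^ k ≤ ∑ k ∈ Finset.Icc 1 n, (1 / 2 : ℝ) ^ k := by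
    refine (Finset.sum_le_sum fun k _ => pow_le_pow_left₀ h0.le hc k).trans ?_
    exact Finset.sum_le_sum_of_subset_of_nonneg hD fun _ _ _ => by positivity
  have h2 : ∀ m : ℕ, ∑ k ∈ Finset.Icc 1 m, (1 / 2 : ℝ) ^ k = 1 - (1 / 2) ^ m := by
    intro m
    induction m with
    | zero => simp
    | succ m ih => rw [Finset.sum_Icc_succ_top (by omega), ih]; ring
  rw [h2, h] at h1
  have : (0 : ℝ) < (1 / 2) ^ n := by positivity
  linarith

theorem isIntegral_of_root {η : ℝ} {n : ℕ} {D : Finset ℕ} (hD : D ⊆ Finset.Icc 1 n)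
    (h : ∑ k ∈ D, η ^ k = 1) : IsIntegral ℤ η := by
  have hne : D.Nonempty := by
    rcases D.eq_empty_or_nonempty with rfl | h'
    · simp at h
    · exact h'
  set m := D.max' hne with hm
  have hmD : m ∈ D := D.max'_mem hne
  have hm1 : 1 ≤ m := (Finset.mem_Icc.1 (hD hmD)).1
  refine ⟨X ^ m + (∑ k ∈ D.erase m, X ^ k - 1), ?_, ?_⟩
  · refine (monic_X_pow m).add_of_left ?_
    rw [degree_X_pow]
    refine (degree_sub_le _ _).trans_lt (max_lt ?_ ?_)
    · refine (degree_sum_le _ _).trans_lt ?_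
      rw [Finset.sup_lt_iff (by exact WithBot.bot_lt_coe m)]
      intro k hk
      rw [degree_X_pow]
      have h1 := Finset.mem_erase.1 hk
      exact_mod_cast lt_of_le_of_ne (D.le_max' k h1.2) h1.1
    · rw [degree_one]
      exact_mod_cast hm1
  · have := Finset.add_sum_erase D (fun k => η ^ k) hmD
    simp only [eval₂_add, eval₂_sub, eval₂_finsetSum, eval₂_pow, eval₂_X, eval₂_one]
    linarith

theorem isIntegral_inv_of_root {η : ℝ} (h0 : 0 < η) {n : ℕ} {D : Finset ℕ}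
    (hD : D ⊆ Finset.Icc 1 n) (h : ∑ k ∈ D, η ^ k = 1) : IsIntegral ℤ η⁻¹ := by
  have hi := isIntegral_of_root hD h
  have e : η⁻¹ = ∑ k ∈ D, η ^ (k - 1) := by
    have h1 : η * ∑ k ∈ D, η ^ (k - 1) = 1 := by
      rw [Finset.mul_sum, ← h]
      refine Finset.sum_congr rfl fun k hk => ?_
      have := (Finset.mem_Icc.1 (hD hk)).1
      rw [← pow_succ']
      congr 1
      omega
    field_simp
    linarith
  rw [e]
  exact IsIntegral.sum _ fun k _ => hi.pow _

/-- the greedy expansion -/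
theorem greedy {lam : ℝ} (h0 : 1 / 2 ≤ lam) (h1 : lam < 1) (m : ℕ) :
    ∃ D ⊆ Finset.Icc 2 (m + 1), 0 ≤ 1 - lam - ∑ k ∈ D, lam ^ k ∧
      1 - lam - ∑ k ∈ D, lam ^ k ≤ lam ^ (m + 1) := by
  induction m with
  | zero => exact ⟨∅, by simp, by simp; linarith, by simp; linarith⟩
  | succ m ih =>
    obtain ⟨D, hD, h2, h3⟩ := ih
    have hsub : Finset.Icc 2 (m + 1) ⊆ Finset.Icc 2 (m + 1 + 1) :=
      Finset.Icc_subset_Icc_right (by omega)
    by_cases h4 : 1 - lam - ∑ k ∈ D, lam ^ k ≤ lam ^ (m + 1 + 1)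
    · exact ⟨D, hD.trans hsub, h2, h4⟩
    · push Not at h4
      have hn : m + 1 + 1 ∉ D := fun h => by
        have := (Finset.mem_Icc.1 (hD h)).2
        omega
      refine ⟨insert (m + 1 + 1) D, ?_, ?_, ?_⟩
      · exact Finset.insert_subset (Finset.mem_Icc.2 ⟨by omega, le_rfl⟩) (hD.trans hsub)
      · rw [Finset.sum_insert hn]; linarith
      · rw [Finset.sum_insert hn]
        have h5 : lam ^ (m + 1) ≤ 2 * lam ^ (m + 1 + 1) := by
          rw [pow_succ lam (m + 1)]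
          have : 0 < lam ^ (m + 1) := by positivity
          nlinarith
        linarith

/-- a root at the right of `lam`, at distance at most `lam ^ n` -/
theorem exists_root {lam : ℝ} (h0 : 1 / 2 ≤ lam) (h1 : lam < 1) {n : ℕ} (hn : 1 ≤ n) :
    ∃ η : ℝ, lam ≤ η ∧ η ≤ lam + lam ^ n ∧ ∃ D ⊆ Finset.Icc 1 n, ∑ k ∈ D, η ^ k = 1 := by
  obtain ⟨m, rfl⟩ : ∃ m, n = m + 1 := ⟨n - 1, by omega⟩
  obtain ⟨D, hD, h2, h3⟩ := greedy h0 h1 m
  set r := 1 - lam - ∑ k ∈ D, lam ^ k with hr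
  have hc : Continuous fun x : ℝ => x + ∑ k ∈ D, x ^ k := by fun_prop
  have hle : lam ≤ lam + r := by linarith
  have hmem : (1 : ℝ) ∈ Set.Icc ((fun x : ℝ => x + ∑ k ∈ D, x ^ k) lam)
      ((fun x : ℝ => x + ∑ k ∈ D, x ^ k) (lam + r)) := by
    constructor
    · show lam + ∑ k ∈ D, lam ^ k ≤ 1
      linarith
    · show 1 ≤ lam + r + ∑ k ∈ D, (lam + r) ^ k
      have : ∑ k ∈ D, lam ^ k ≤ ∑ k ∈ D, (lam + r) ^ k :=
        Finset.sum_le_sum fun k _ => pow_le_pow_left₀ (by linarith) hle k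
      linarith
  obtain ⟨η, hη, he⟩ := intermediate_value_Icc hle hc.continuousOn hmem
  have h1D : 1 ∉ D := fun h => by
    have := (Finset.mem_Icc.1 (hD h)).1
    omega
  refine ⟨η, hη.1, by linarith [hη.2], insert 1 D, ?_, ?_⟩
  · exact Finset.insert_subset (Finset.mem_Icc.2 ⟨le_rfl, by omega⟩)
      (hD.trans (Finset.Icc_subset_Icc_left (by omega)))
  · rw [Finset.sum_insert h1D, pow_one]
    exact he

end Vale.Agent.P105Z
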